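import Mathlib
import Vale.Agent.P344.Main

namespace Vale.Agent.Results.P344.Explicit

open Vale.Agent.P344

theorem result : ∃ C : ℝ, ∀ n : ℕ, 2 ≤ n → ∃ g : List (Val n), Circuit g ∧
    (∀ j, Avail g (dft n j)) ∧
    (g.length : ℝ) ≤ C * n * Real.logb 2 n ^ (1 - 2 / 10 ^ 13 : ℝ) := main'

end Vale.Agent.Results.P344.Explicit
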