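import Mathlib
import Vale.Agent.P344.Main

namespace Vale.Agent.Results.P344.FastDFT

open Vale.Agent.P344 Filter

theorem result :
    (∃ δ : ℝ, 0 < δ ∧ ∃ C : ℝ, ∀ n : ℕ, 2 ≤ n → ∃ g : List (Val n), Circuit g ∧
      (∀ j, Avail g (dft n j)) ∧ (g.length : ℝ) ≤ C * n * Real.logb 2 n ^ (1 - δ)) ∧
    ¬ ∃ c : ℝ, 0 < c ∧ ∀ᶠ n : ℕ in atTop, ∀ g : List (Val n), Circuit g →
      (∀ j, Avail g (dft n j)) → c * n * Real.logb 2 n ≤ g.length := by
  refine ⟨main, ?_⟩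
  rintro ⟨c, hc, h⟩
  obtain ⟨δ, hδ, C, hC⟩ := main
  have t1 : Tendsto (fun n : ℕ => Real.logb 2 n ^ δ) atTop atTop :=
    (tendsto_rpow_atTop hδ).comp ((Real.tendsto_logb_atTop (by norm_num)).comp
      tendsto_natCast_atTop_atTop)
  obtain ⟨n, h1, h2, h3⟩ := (h.and ((eventually_ge_atTop 2).and
    (t1.eventually_gt_atTop (C / c)))).exists
  obtain ⟨g, k1, k2, k3⟩ := hC n h2
  have k4 := (h1 g k1 k2).trans k3
  have hn : (2 : ℝ) ≤ n := by exact_mod_cast h2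
  have hL : 0 < Real.logb 2 n := Real.logb_pos (by norm_num) (by linarith)
  have e : Real.logb 2 n = Real.logb 2 n ^ δ * Real.logb 2 n ^ (1 - δ) := by
    rw [← Real.rpow_add hL]; simp
  have p : 0 < n * Real.logb 2 n ^ (1 - δ) := by positivity
  rw [div_lt_iff₀ hc] at h3
  have k5 := mul_lt_mul_of_pos_right h3 p
  have : c * n * Real.logb 2 n =
      Real.logb 2 n ^ δ * c * (n * Real.logb 2 n ^ (1 - δ)) := by
    conv_lhs => rw [e]
    ring
  linarith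

end Vale.Agent.Results.P344.FastDFT
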